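import Vale.Agent.P277.H29.ClosN
import Vale.Agent.P277.H762.T5.Defs

/-!
# P277, T5: the tower over the resolution, and the sets `N j`
-/

set_option linter.unusedSectionVars false

open scoped Manifold ContDiff Topology
open Vale.Agent.P272.K Vale.Agent.P285.H281.FD Vale.Agent.P267.H175 Set Metric Filter

noncomputable section

namespace Vale.Agent.P277.T3

section

variable {Y : Type} [TopologicalSpace Y] [T2Space Y] [CompactSpace Y] [ChartedSpace (Cm 4) Y]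
  {χ : Chart 4 Y → Cm 4 → Matrix (Fin 4) (Fin 4) ℂ} {k s : ℕ} {M : Fin (k + s) → Bd Y}
  {m : Fin (k + s) → ℕ} {ρ : Fin (k + s) → ℝ} {H : Fin s → Type} [∀ i, TopologicalSpace (H i)]
  [∀ i, CompactSpace (H i)] [∀ i, ChartedSpace (Cm 3) (H i)] {ι : ∀ i, H i → Y}
  {sg : ∀ i : Fin s, (M (Fin.natAdd k i)).ι → Y → ℂ} {W : CSp} {X Z : ℕ → CSp} {r : ℕ}
  {v₀ : Y → W.pt} {p : W.pt → (X 0).pt} {P : Bd W.pt} {G : Fin r → Set Y}
  {f : ∀ j, (X j).pt → (Z j).pt} {f' : ∀ j, (X (j + 1)).pt → (Z j).pt}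
  {A : ∀ j, Set (Z j).pt} {L : ∀ j, Fin (k + s) → Bd (X j).pt} {c : ℕ → Fin (k + s) → ℕ}
  {σ : ∀ j, ∀ i : Fin s, (L j (Fin.natAdd k i)).ι → (X j).pt → ℂ}
  {n : Fin (k + s) → Fin r → ℤ} {t : ∀ e, (L 0 e).ι →
    ((((Bd.can 4 Y).pow (m e)).mul (M e)).pow (c 0 e)).ι → Y → ℂ}
  {I : Set (Fin r)} {I' : Set (Fin s)} {N : ∀ j, Set (X j).pt}

theorem IsPN5.isClosed_bad (h : IsPN5 χ M m ρ ι sg v₀ p P G f f' A L c σ n t I I' N) :
    IsClosed (bad ι G I I') :=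
  T3.isClosed_bad h.res.closed fun i => (h.bd i).sub.cont

/-- the sets `N j` are closed -/
theorem IsPN5.isClosed (h : IsPN5 χ M m ρ ι sg v₀ p P G f f' A L c σ n t I I' N) (j : ℕ) :
    IsClosed (N j) := by
  induction j with
  | zero =>
    rw [h.N0]
    have h1 : Continuous fun y => p (v₀ y) :=
      h.res.cont.comp (continuousOn_univ.1 h.res.emb.cont)
    exact (h.isClosed_bad.isCompact.image h1).isClosed
  | succ j ih =>
    rw [h.Nsucc j]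
    exact ((ih.isCompact.image (h.flip j).flip.small.cont).isClosed).preimage
      (h.flip j).flip.small'.cont

end

end Vale.Agent.P277.T3

namespace Vale.Agent.P277.H762

open Vale.Agent.P277 Vale.Agent.P277.T2 Vale.Agent.P277.T3 Vale.Agent.P277.H615
open Vale.Agent.P277.H371.N Vale.Agent.P277.H884.N

variable {Y : Type} [TopologicalSpace Y] [ChartedSpace (Cm 4) Y]
  [T2Space Y] [CompactSpace Y] [IsManifold 𝓘(ℂ, Cm 4) ω Y]

theorem exists_twSeqN5 (hL0 : StL0) {χ : Chart 4 Y → Cm 4 → Matrix (Fin 4) (Fin 4) ℂ} {k s : ℕ}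
    {M : Fin (k + s) → Bd Y} {m : Fin (k + s) → ℕ} {ρ : Fin (k + s) → ℝ} {H : Fin s → Type}
    [∀ i, TopologicalSpace (H i)] [∀ i, ChartedSpace (Cm 3) (H i)] {ι : ∀ i, H i → Y}
    {sg : ∀ i : Fin s, (M (Fin.natAdd k i)).ι → Y → ℂ} {W : CSp} {X Z : ℕ → CSp} {r : ℕ}
    {v₀ : Y → W.pt} {p₀ : W.pt → (X 0).pt} {P₀ : Bd W.pt} {G : Fin r → Set Y}
    {f : ∀ j, (X j).pt → (Z j).pt} {f' : ∀ j, (X (j + 1)).pt → (Z j).pt}
    {A : ∀ j, Set (Z j).pt} {L : ∀ j, Fin (k + s) → Bd (X j).pt} {c : ℕ → Fin (k + s) → ℕ}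
    {σ : ∀ j, ∀ i : Fin s, (L j (Fin.natAdd k i)).ι → (X j).pt → ℂ}
    {n : Fin (k + s) → Fin r → ℤ} {t : ∀ e, (L 0 e).ι →
      ((((Bd.can 4 Y).pow (m e)).mul (M e)).pow (c 0 e)).ι → Y → ℂ}
    {I : Set (Fin r)} {I' : Set (Fin s)} {N : ∀ j, Set (X j).pt}
    (h : IsPN5 χ M m ρ ι sg v₀ p₀ P₀ G f f' A L c σ n t I I' N) :
    ∃ (O : ℕ → Set Y) (v : ∀ j, Y → (X j).pt) (P Q : ℕ → Fin (k + s) → ℕ)
      (T : ∀ j e, (L j e).ι → (((Bd.can 4 Y).pow (m e)).mul (M e)).ι → Y → ℂ),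
      TwSeqN ρ sg v₀ p₀ G f f' L c σ t N (bad ι G I I') O v P Q T := by
  have hk : 1 ≤ k + s := by
    rcases Nat.eq_zero_or_pos (k + s) with h0 | h0
    · exfalso
      have h1 := h.sum
      have h2 : IsEmpty (Fin (k + s)) := by rw [h0]; infer_instance
      rw [Finset.sum_of_isEmpty] at h1
      exact zero_ne_one h1
    · exact h0
  have hN : ∀ e, CtBd (((Bd.can 4 Y).pow (m e)).mul (M e)) := fun e => ctBd (h.lb e) (m e)
  have hneX : Nonempty (X 0).pt := by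
    have h1 := (h.flip 0).flip.ninj
    rw [Function.Injective] at h1
    push Not at h1
    obtain ⟨x, -⟩ := h1
    exact ⟨x⟩
  have hneW : Nonempty W.pt := by
    obtain ⟨x⟩ := hneX
    obtain ⟨w, -⟩ := h.res.psurj x
    exact ⟨w⟩
  have hDd : Dense (⋃ l, G l)ᶜ := dense_compl_iUnion_hyp h.res.hyp h.res.closed
  have hDc : IsClosed (⋃ l, G l) := isClosed_iUnion_of_finite h.res.closed
  have hcan : ∀ l, 0 ≤ ∑ e, ρ e * n e l / c 0 e ∨ G l ⊆ bad ι G I I' := by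
    intro l
    by_cases hl : l ∈ I
    · exact Or.inr fun y hy => Or.inl (mem_iUnion₂.2 ⟨l, hl, hy⟩)
    · exact Or.inl (h.canon l hl)
  let st0 : StateB M m (L 0) := ⟨(⋃ l, G l)ᶜ, fun y => p₀ (v₀ y), fun _ => 1, c 0, t⟩
  have hbase : TwN v₀ (⋃ l, G l) (fun e => ((Bd.can 4 Y).pow (m e)).mul (M e)) (X 0) (L 0) (c 0)
      (⋃ l, G l)ᶜ (fun y => p₀ (v₀ y)) (fun _ => 1) (c 0) t ρ ∅ (N 0) (bad ι G I I') := by
    rw [h.N0]
    exact TwN.base hL0 (h.flip 0).flip.normal h.res hneW (fun e => (hN e).isOpen)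
      (fun e => (hN e).cover) (h.flip 0).flip.lb (h.c1 0) h.cmp hcan
  obtain ⟨S, hS0, hS1, hS2⟩ := exists_seq_dep (α := fun j => StateB M m (L j)) st0
    (fun j a => (∃ S, TwN v₀ (⋃ l, G l) (fun e => ((Bd.can 4 Y).pow (m e)).mul (M e)) (X j) (L j)
      (c j) a.O a.v a.P a.Q a.T ρ S (N j) (bad ι G I I')) ∧
      SecRel (L j) a.O a.v a.P a.Q a.T sg (σ j))
    (fun j a a' => TwN v₀ (⋃ l, G l) (fun e => ((Bd.can 4 Y).pow (m e)).mul (M e)) (X (j + 1))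
      (L (j + 1)) (c (j + 1)) a'.O a'.v a'.P a'.Q a'.T ρ (f' j ⁻¹' Amin (f j)) (N (j + 1))
        (bad ι G I I') ∧
      ∃ (p q : Fin (k + s) → ℕ) (u : ∀ e, (L j e).ι → (L (j + 1) e).ι → (Z j).pt → ℂ)
        (w : Fin (k + s) → ℤ) (hf : FlipD (f j) (f' j) (L j) (L (j + 1)) p q u w) (d : ℕ)
        (b : ∀ e, (X j).pt → (L j e).ι), 1 ≤ d ∧ (∀ e, c j e * p e = c (j + 1) e * q e) ∧
        (∀ e, (w e : ℝ) ≤ d * (ρ e / (c j e * p e)) ∧ d * (ρ e / (c j e * p e)) ≤ w e + 1) ∧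
        (∀ e x, x ∈ (L j e).U (b e x)) ∧ a'.O = {y | y ∈ a.O ∧ f j (a.v y) ∉ Amin (f j)} ∧
        a'.v = (fun y => hf.small'.sec (f j (a.v y))) ∧ a'.P = (fun e => q e * a.P e) ∧
        a'.Q = (fun e => a.Q e * p e) ∧
        a'.T = (fun e => stT a.v (f j) (a.P e) (p e) (a.T e) (u e) (b e)))
    ⟨⟨∅, hbase⟩, by
      intro i y a ch b hy ha hch hb
      show σ 0 i a (p₀ (v₀ y)) ^ 1 * t (Fin.natAdd k i) a (ch, b) y =
        sg i b y ^ c 0 (Fin.natAdd k i)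
      rw [pow_one]
      exact h.corr i a ch b y hy ha hch hb⟩
    (by
      rintro j ⟨O, v, P, Q, T⟩ ⟨⟨S, hTw⟩, hsec⟩
      obtain ⟨p, q, u, d, w, hd, hcpq, hf, hda, hcor⟩ := exists_flipDB (h.flip j) (h.c1 j)
      choose b hb using fun e => (hf.lb e).cover
      have hb' : ∀ e x, x ∈ (L j e).U (b e x) := hb
      have hTw' := hTw.step hk (fun e => (hN e).isOpen) h.res.emb hf hd hcpq hda hb'
      rw [← h.Nsucc j] at hTw'
      exact ⟨⟨_, _, _, _, _⟩, ⟨⟨_, hTw'⟩, hsec.step hf hcor hb'⟩, hTw', p, q, u, w, hf, d, b, hd,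
        hcpq, hda, hb', rfl, rfl, rfl, rfl, rfl⟩)
  refine ⟨fun j => (S j).O, fun j => (S j).v, fun j => (S j).P, fun j => (S j).Q,
    fun j => (S j).T, ?_⟩
  refine ⟨by rw [hS0], by rw [hS0], by rw [hS0], by rw [hS0], by rw [hS0], ?_, fun j => (hS2 j).1,
    fun j => (hS2 j).2, fun j => (hS1 j).2, fun j => ?_⟩
  · rw [hS0]; exact hbase
  · obtain ⟨⟨S', hTw⟩, -⟩ := hS1 j
    exact (hTw.tw ⟨0, hk⟩).dense h.res.emb h.res.surj hDd hDc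

/-- the tower with the given sets `O j` -/
theorem exists_twSeqN5_of (hL0 : StL0) {χ : Chart 4 Y → Cm 4 → Matrix (Fin 4) (Fin 4) ℂ} {k s : ℕ}
    {M : Fin (k + s) → Bd Y} {m : Fin (k + s) → ℕ} {ρ : Fin (k + s) → ℝ} {H : Fin s → Type}
    [∀ i, TopologicalSpace (H i)] [∀ i, ChartedSpace (Cm 3) (H i)] {ι : ∀ i, H i → Y}
    {sg : ∀ i : Fin s, (M (Fin.natAdd k i)).ι → Y → ℂ} {W : CSp} {X Z : ℕ → CSp} {r : ℕ}
    {v₀ : Y → W.pt} {p₀ : W.pt → (X 0).pt} {P₀ : Bd W.pt} {G : Fin r → Set Y}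
    {f : ∀ j, (X j).pt → (Z j).pt} {f' : ∀ j, (X (j + 1)).pt → (Z j).pt}
    {A : ∀ j, Set (Z j).pt} {L : ∀ j, Fin (k + s) → Bd (X j).pt} {c : ℕ → Fin (k + s) → ℕ}
    {σ : ∀ j, ∀ i : Fin s, (L j (Fin.natAdd k i)).ι → (X j).pt → ℂ}
    {n : Fin (k + s) → Fin r → ℤ} {t : ∀ e, (L 0 e).ι →
      ((((Bd.can 4 Y).pow (m e)).mul (M e)).pow (c 0 e)).ι → Y → ℂ}
    {I : Set (Fin r)} {I' : Set (Fin s)} {N : ∀ j, Set (X j).pt}
    (h : IsPN5 χ M m ρ ι sg v₀ p₀ P₀ G f f' A L c σ n t I I' N)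
    {O : ℕ → Set Y} {v : ∀ j, Y → (X j).pt}
    (hs : IsSeq X Z f f' (fun j => Amin (f j)) O v) (hO : O 0 = (⋃ l, G l)ᶜ)
    (hv : v 0 = fun y => p₀ (v₀ y)) :
    ∃ (v' : ∀ j, Y → (X j).pt) (P Q : ℕ → Fin (k + s) → ℕ)
      (T : ∀ j e, (L j e).ι → (((Bd.can 4 Y).pow (m e)).mul (M e)).ι → Y → ℂ),
      TwSeqN ρ sg v₀ p₀ G f f' L c σ t N (bad ι G I I') O v' P Q T ∧
        ∀ j, ∀ y ∈ O j, v' j y = v j y := by
  obtain ⟨O', v', P, Q, T, hT⟩ := exists_twSeqN5 hL0 h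
  have h1 := hT.eq_seq hs hO hv
  have h2 : O' = O := funext fun j => (h1 j).1.symm
  subst h2
  exact ⟨v', P, Q, T, hT, fun j y hy => ((h1 j).2 y hy).symm⟩

end Vale.Agent.P277.H762
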