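import Vale.Agent.P277.H29.Cls
import Vale.Agent.P277.H371.C.FinB
import Vale.Agent.P277.H762.T5.Seq

/-!
# P277, T5: persistence of the order vectors along the wedges of high order in `B μ`
-/

set_option linter.unusedSectionVars false

open scoped Manifold ContDiff Topology
open Vale.Agent.P272.K Vale.Agent.P285.H281.FD Vale.Agent.P267.H175 Set Metric Filter

noncomputable section

namespace Vale.Agent.P277.H762

open Vale.Agent.P277 Vale.Agent.P277.T2 Vale.Agent.P277.T3 Vale.Agent.P277.H615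
open Vale.Agent.P277.H371.N Vale.Agent.P277.H884.N
open Vale.Agent.P277.H884.W (NG NiceW.at NiceW.restrict)

section flip

variable {Y : Type} [TopologicalSpace Y] [ChartedSpace (Cm 4) Y]
variable {k : ℕ} {V X Z X' : CSp} {vV : Y → V.pt} {G₀ : Set Y} {N : Fin k → Bd Y}
  {L : Fin k → Bd X.pt} {L' : Fin k → Bd X'.pt} {c c' : Fin k → ℕ} {O : Set Y}
  {v : Y → X.pt} {P Q : Fin k → ℕ} {T : ∀ e, (L e).ι → (N e).ι → Y → ℂ} {ρ : Fin k → ℝ}
  {S : Set X.pt} {f : X.pt → Z.pt} {f' : X'.pt → Z.pt} {p q : Fin k → ℕ}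
  {s : ∀ e, (L e).ι → (L' e).ι → Z.pt → ℂ} {a : Fin k → ℤ}
  {Γ : Cm 4 → Y} {D : Set (Cm 4)} {w₀ : Cm 4} {r : ℝ} {γ : Cm 4 → X.pt}
  {i : ∀ e, (L e).ι} {n : ∀ e, (N e).ι} {x : Fin k → ℚ}

/-- extension through a flip outside the exceptional sets -/
theorem nice_persist (hTw : Tw1 vV G₀ N X L c O v P Q T)
    (hf : FlipD f f' L L' p q s a)
    {b : ∀ e, X.pt → (L e).ι} (hb : ∀ e x, x ∈ (L e).U (b e x))
    (h : NiceW O v T Γ D w₀ r γ i n x) (hA : f (γ w₀) ∉ Amin f) :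
    ∃ (r₂ : ℝ) (γ₁ : Cm 4 → X'.pt) (j : ∀ e, (L' e).ι),
      NiceW {y | y ∈ O ∧ f (v y) ∉ Amin f} (fun y => hf.small'.sec (f (v y)))
        (fun e => stT v f (P e) (p e) (T e) (s e) (b e)) Γ D w₀ r₂ γ₁ j n
        (fun e => x e * p e) := by
  set O' : Set Y := {y | y ∈ O ∧ f (v y) ∉ Amin f} with hO'def
  have hw₀ : w₀ ∈ ball w₀ r := mem_ball_self h.pos
  set γ₁ : Cm 4 → X'.pt := fun w => hf.small'.sec (f (γ w)) with hγ₁
  choose j hj using fun e => (hf.lb' e).cover (γ₁ w₀)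
  have hcont : ∀ w ∈ ball w₀ r, ContinuousAt (fun w => f (γ w)) w := fun w hw =>
    hf.small.cont.continuousAt.comp (h.hol w hw).1
  have hholf : ∀ w ∈ ball w₀ r, HolAt Z (fun w => f (γ w)) w := fun w hw =>
    ⟨hcont w hw, fun g hg => (h.hol w hw).2 _ (hf.small.holo _ g hg)⟩
  have hhol₁ : ∀ w ∈ ball w₀ r, f (γ w) ∉ Amin f → HolAt X' γ₁ w := by
    intro w hw hwA
    obtain ⟨k1, k2⟩ := hf.small'.holMap_sec hwA
    exact ⟨ContinuousAt.comp (g := hf.small'.sec) (f := fun w => f (γ w)) k1 (hcont w hw),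
      fun g hg => (hholf w hw).2 (g ∘ hf.small'.sec) (k2 g hg)⟩
  have hev : ∀ᶠ w in 𝓝 w₀, w ∈ ball w₀ r ∧ f (γ w) ∉ Amin f ∧ ∀ e, γ₁ w ∈ (L' e).U (j e) := by
    refine (isOpen_ball.eventually_mem hw₀).and (Filter.Eventually.and ?_ ?_)
    · exact (hcont w₀ hw₀).eventually_mem (hf.small.isClosed.isOpen_compl.mem_nhds hA)
    · rw [eventually_all]
      exact fun e => (hhol₁ w₀ hw₀ hA).1.eventually_mem (((hf.lb' e).isOpen (j e)).mem_nhds (hj e))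
  obtain ⟨r₂, hr₂, hball⟩ := Metric.eventually_nhds_iff_ball.1 hev
  have hs2 : ball w₀ r₂ ⊆ ball w₀ r := fun w hw => (hball w hw).1
  refine ⟨r₂, γ₁, j, h.zero, hr₂, hs2.trans h.sub, fun w hw => hhol₁ w (hs2 hw) (hball w hw).2.1,
    fun w hw => (hball w hw).2.2, fun w hw => h.memN w (hs2 hw), fun w hw hwO => ?_, ?_⟩
  · show hf.small'.sec (f (γ w)) = hf.small'.sec (f (v (Γ w)))
    rw [h.eq w (hs2 hw) hwO.1]
  · intro w hw hw0 e
    have hnb : ∀ᶠ z in 𝓝 w, z ∈ ball w₀ r₂ := isOpen_ball.mem_nhds hw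
    have hsol : ∀ z ∈ ball w₀ r₂, Z.Hol (s e (i e) (j e)) (f (γ z)) ∧
        s e (i e) (j e) (f (γ z)) ≠ 0 := fun z hz =>
      (hf.iso e).holo (γ z) (γ₁ z) (i e) (j e) (hball z hz).2.1 (hf.small'.sec_eq _)
        (h.memU z (hs2 hz) e) ((hball z hz).2.2 e)
    have hsan : AnalyticAt ℂ (fun w => s e (i e) (j e) (f (γ w))) w :=
      (hholf w (hs2 hw)).2 _ (hsol w hw).1
    have h1 := ((h.ord w (hs2 hw) hw0 e).pow (p e)).mono (D' := {w | Γ w ∈ O'})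
      (Eventually.of_forall fun z hz => hz.1)
    have h2 : HasOrd {w | Γ w ∈ O'} w (fun w => (s e (i e) (j e) (f (γ w))) ^ P e) 0 :=
      HasOrd.of_unit hw0 (hsan.pow _) (pow_ne_zero _ (hsol w hw).2)
    have hsne : ∀ᶠ z in 𝓝 w, z ∈ {w | Γ w ∈ O'} → z 0 ≠ 0 →
        (s e (i e) (j e) (f (γ z))) ^ P e ≠ 0 := by
      filter_upwards [hnb] with z hz _ _
      exact pow_ne_zero _ (hsol z hz).2
    have h3 := h1.mul hw0 (h2.inv hsne)
    rw [neg_zero, add_zero] at h3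
    refine h3.congr ?_
    filter_upwards [hnb] with z hz hzO _
    have k3 : γ z = v (Γ z) := h.eq z (hs2 hz) hzO.1
    have h6 := stT_eq' (hTw.tw e).iso (hTw.tw e).lb hf.small' (IsLBx.pow (hf.lb e) (p e))
      (IsLBx.pow (hf.lb' e) (q e)) (hf.iso e) (hb e) hzO.1 hzO.2 (a₁ := i e) (b := j e)
      (c := n e) (by rw [← k3]; exact h.memU z (hs2 hz) e)
      (by rw [← k3]; exact (hball z hz).2.2 e) (h.memN z (hs2 hz) e)
    rw [h6]
    show T e (i e) (n e) (Γ z) ^ p e / s e (i e) (j e) (f (v (Γ z))) ^ P e = _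
    rw [k3, div_eq_mul_inv]

end flip

/-- near every point of `{w 0 = 0}` there are points with `w 1 ≠ 0` -/
theorem freq_one_ne {w₀ : Cm 4} (h0 : w₀ 0 = 0) : ∃ᶠ w in 𝓝 w₀, w 0 = 0 ∧ w 1 ≠ 0 := by
  have h1 : Tendsto (fun t : ℂ => Function.update w₀ 1 t) (𝓝[≠] (w₀ 1)) (𝓝 w₀) := by
    have h2 : ContinuousAt (fun t : ℂ => Function.update w₀ 1 t) (w₀ 1) :=
      (continuous_const.update 1 continuous_id).continuousAt
    have h3 := h2.tendsto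
    rw [Function.update_eq_self] at h3
    exact h3.mono_left nhdsWithin_le_nhds
  have h2 : ∀ᶠ t in 𝓝[≠] (w₀ 1), t ≠ 0 := by
    by_cases hw : w₀ 1 = 0
    · rw [hw]
      exact eventually_mem_nhdsWithin
    · exact nhdsWithin_le_nhds (isOpen_ne.mem_nhds hw)
  refine h1.frequently (h2.frequently.mono fun t ht => ⟨?_, ?_⟩)
  · rw [Function.update_of_ne (by decide)]
    exact h0
  · rw [Function.update_self]
    exact ht

theorem an_bet (g : ℕ) (w : Cm 4) : AnalyticAt ℂ (T3.bet g) w := by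
  rw [analyticAt_pi_iff]
  intro i
  have hc : ∀ j : Fin 4, AnalyticAt ℂ (fun w : Cm 4 => w j) w := fun j =>
    (ContinuousLinearMap.proj (R := ℂ) (φ := fun _ : Fin 4 => ℂ) j).analyticAt w
  fin_cases i
  · exact ((hc 0).pow g).mul (hc 1)
  · exact hc 0
  · exact hc 2
  · exact hc 3

section sec

variable {Y : Type} [TopologicalSpace Y] [T2Space Y] [ChartedSpace (Cm 4) Y]
  [IsManifold 𝓘(ℂ, Cm 4) ω Y]

/-- the order of the section of `H` along the wedge `Ψ ∘ bet h` -/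
theorem sec_hasOrd {H : Type} [TopologicalSpace H] [ChartedSpace (Cm 3) H] {ι : H → Y}
    {E : Bd Y} {sg : E.ι → Y → ℂ} (hE : IsLB 4 E) (hbd : T3.IsBd ι E sg) {Ψ : Cm 4 → Y}
    {z : Cm 4} {r' : ℝ} (hpar : IsPar (range ι) Ψ z r') {h : ℕ} (hh : 1 ≤ h) {w₀ : Cm 4}
    (hw₀ : T3.bet h w₀ ∈ ball z r') (h0 : w₀ 0 = 0) {b : E.ι} (hb : Ψ (T3.bet h w₀) ∈ E.U b)
    {D : Set (Cm 4)} : HasOrd D w₀ (fun w => sg b (Ψ (T3.bet h w))) h := by
  have hz0 : T3.bet h w₀ 0 = 0 := by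
    show w₀ 0 ^ h * w₀ 1 = 0
    rw [h0, zero_pow (by omega), zero_mul]
  obtain ⟨r₁, hr₁, hs⟩ := Metric.isOpen_iff.1 isOpen_ball _ hw₀
  have hpar' : IsPar (range ι) Ψ (T3.bet h w₀) r₁ := hpar.restrict hz0 hr₁ hs
  have hζ : IsLEq (range ι) (Ψ (T3.bet h w₀)) (sg b) := by
    refine ⟨?_, fun e he => ⟨(hbd.sec.holo _ e _ he hb).analyticAt,
      fun h0 => hbd.mult _ _ hb h0 e he⟩⟩
    filter_upwards [(hE.isOpen b).mem_nhds hb] with y' hy'
    exact hbd.zero _ _ hy'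
  obtain ⟨u, hu, hu0, hsu⟩ := H29.FC.leq_par hpar' hζ
  have hua : AnalyticAt ℂ (fun w => u (T3.bet h w)) w₀ :=
    AnalyticAt.fun_comp (g := u) (f := T3.bet h) hu (an_bet h w₀)
  have h1a : AnalyticAt ℂ (fun w : Cm 4 => w 1) w₀ :=
    (ContinuousLinearMap.proj (R := ℂ) (φ := fun _ : Fin 4 => ℂ) 1).analyticAt w₀
  refine ⟨1, h, fun w => w 1 * u (T3.bet h w), fun _ => 1, le_rfl, by simp, h1a.mul hua,
    analyticAt_const, freq_mul' h0 h1a hua (freq_one_ne h0) (freq_one h0 hua.continuousAt hu0),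
    freq_one h0 continuousAt_const one_ne_zero, ?_⟩
  filter_upwards [(an_bet h w₀).continuousAt.eventually hsu] with w hw _ _
  rw [one_mul, pow_one, hw, zpow_natCast]
  show w 0 ^ h * w 1 * _ = _
  ring

variable {k s : ℕ} {V X : CSp} {vV : Y → V.pt} {G₀ : Set Y} {M : Fin (k + s) → Bd Y}
  {m : Fin (k + s) → ℕ} {L : Fin (k + s) → Bd X.pt} {c : Fin (k + s) → ℕ} {O : Set Y}
  {v : Y → X.pt} {P Q : Fin (k + s) → ℕ}
  {T : ∀ e, (L e).ι → (((Bd.can 4 Y).pow (m e)).mul (M e)).ι → Y → ℂ}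
  {sg : ∀ i : Fin s, (M (Fin.natAdd k i)).ι → Y → ℂ}
  {σ : ∀ i : Fin s, (L (Fin.natAdd k i)).ι → X.pt → ℂ}

/-- at the nice points of the wedge `Ψ ∘ bet h` the section of `B μ` vanishes, unless
`α μ = h` -/
theorem sigma_zero (hTw : Tw1 vV G₀ (fun e => ((Bd.can 4 Y).pow (m e)).mul (M e)) X L c O v P Q T)
    (hsec : SecRel L O v P Q T sg σ) {μ : Fin s} {H : Type} [TopologicalSpace H]
    [ChartedSpace (Cm 3) H] {ι : H → Y} (hE : IsLB 4 (M (Fin.natAdd k μ)))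
    (hbd : T3.IsBd ι (M (Fin.natAdd k μ)) (sg μ)) (hσ : IsSecx X univ (L (Fin.natAdd k μ)) (σ μ))
    {Ψ : Cm 4 → Y} {z : Cm 4} {r' : ℝ} (hpar : IsPar (range ι) Ψ z r') {h : ℕ} (hh : 1 ≤ h)
    (hOo : IsOpen O) (hO : Dense O) {w₀ : Cm 4} {r : ℝ} {γ : Cm 4 → X.pt}
    {i : ∀ e, (L e).ι} {n : ∀ e, (((Bd.can 4 Y).pow (m e)).mul (M e)).ι} {x : Fin (k + s) → ℚ}
    (hW : IsWg (fun w => Ψ (T3.bet h w)) {w | T3.bet h w ∈ ball z r'})
    (hn : NiceW O v T (fun w => Ψ (T3.bet h w)) {w | T3.bet h w ∈ ball z r'} w₀ r γ i n x)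
    (hx : x (Fin.natAdd k μ) ≠ h * Q (Fin.natAdd k μ)) :
    γ w₀ ∈ zer (L (Fin.natAdd k μ)) (σ μ) := by
  have hw₀ : w₀ ∈ ball w₀ r := mem_ball_self hn.pos
  rw [H371.C.mem_zer hσ (hn.memU w₀ hw₀ _)]
  by_contra hne
  apply hx
  set Γ : Cm 4 → Y := fun w => Ψ (T3.bet h w) with hΓ
  have hord := hn.ord w₀ hw₀ hn.zero (Fin.natAdd k μ)
  have hmem := hn.memN w₀ hw₀ (Fin.natAdd k μ)
  have hord' := (sec_hasOrd hE hbd hpar hh (hn.sub hw₀) hn.zero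
    (b := (n (Fin.natAdd k μ)).2) hmem.2 (D := {w | Γ w ∈ O})).pow (Q (Fin.natAdd k μ))
  have hua : AnalyticAt ℂ (fun w => σ μ (i (Fin.natAdd k μ)) (γ w)) w₀ :=
    (hn.hol w₀ hw₀).2 _ (hσ.holo _ _ (mem_univ _) (hn.memU w₀ hw₀ _))
  refine hord.unique' (u := fun w => σ μ (i (Fin.natAdd k μ)) (γ w) ^ P (Fin.natAdd k μ)) hn.zero
    (H884.W.IsWg.denseNear hW hOo hO (hn.sub hw₀)) ?_ hord' ?_ ?_
  · filter_upwards [isOpen_ball.mem_nhds hw₀] with w hw hwO _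
    refine T_ne1 hTw hwO _ ?_ (hn.memN w hw _)
    rw [← hn.eq w hw hwO]; exact hn.memU w hw _
  · filter_upwards [hua.eventually_analyticAt, hua.continuousAt.eventually_ne hne] with w k1 k2
    exact ⟨k1.continuousAt.pow _, pow_ne_zero _ k2⟩
  · filter_upwards [isOpen_ball.mem_nhds hw₀] with w hw hwO _
    have k1 := hn.memN w hw (Fin.natAdd k μ)
    have k2 := hsec μ (Γ w) (i (Fin.natAdd k μ)) (n (Fin.natAdd k μ)).1 (n (Fin.natAdd k μ)).2 hwO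
      (by rw [← hn.eq w hw hwO]; exact hn.memU w hw _) k1.1 k1.2
    rw [← hn.eq w hw hwO] at k2
    exact k2.symm

end sec

end Vale.Agent.P277.H762
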