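import Vale.Agent.P277.H615.R.Count
import Vale.Agent.P277.H762.T5.Persist

/-!
# P277, T5: persistence of the order vectors in the tower, and the counting argument
-/

set_option linter.unusedSectionVars false

open scoped Manifold ContDiff Topology
open Vale.Agent.P272.K Vale.Agent.P285.H281.FD Vale.Agent.P267.H175 Set Metric Filter

noncomputable section

namespace Vale.Agent.P277.H762

open Vale.Agent.P277 Vale.Agent.P277.T2 Vale.Agent.P277.T3 Vale.Agent.P277.H615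
open Vale.Agent.P277.H371.N Vale.Agent.P277.H884.N
open Vale.Agent.P277.H884.W (NG NiceW.at NiceW.restrict)

section tower

variable {Y : Type} [TopologicalSpace Y] [T2Space Y] [CompactSpace Y] [ChartedSpace (Cm 4) Y]
  [IsManifold 𝓘(ℂ, Cm 4) ω Y] {k s : ℕ} {M : Fin (k + s) → Bd Y} {m : Fin (k + s) → ℕ}
  {ρ : Fin (k + s) → ℝ} {sg : ∀ i : Fin s, (M (Fin.natAdd k i)).ι → Y → ℂ} {W : CSp}
  {X Z : ℕ → CSp} {r : ℕ} {v₀ : Y → W.pt} {p₀ : W.pt → (X 0).pt} {G : Fin r → Set Y}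
  {f : ∀ j, (X j).pt → (Z j).pt} {f' : ∀ j, (X (j + 1)).pt → (Z j).pt}
  {L : ∀ j, Fin (k + s) → Bd (X j).pt} {c : ℕ → Fin (k + s) → ℕ}
  {σ : ∀ j, ∀ i : Fin s, (L j (Fin.natAdd k i)).ι → (X j).pt → ℂ}
  {t : ∀ e, (L 0 e).ι → (((Bd.can 4 Y).pow (m e)).mul (M e)).ι → Y → ℂ}
  {N : ∀ j, Set (X j).pt} {Bad : Set Y}
  {O : ℕ → Set Y} {v : ∀ j, Y → (X j).pt} {P Q : ℕ → Fin (k + s) → ℕ}
  {T : ∀ j e, (L j e).ι → (((Bd.can 4 Y).pow (m e)).mul (M e)).ι → Y → ℂ}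

/-- one step outside the exceptional sets -/
theorem TwSeqN.persist_step (h : TwSeqN ρ sg v₀ p₀ G f f' L c σ t N Bad O v P Q T)
    {Γ : Cm 4 → Y} {D : Set (Cm 4)} {j : ℕ} {α α' : Fin (k + s) → ℚ}
    (hα : OrdW (O j) (v j) (T j) (Q j) Γ D α)
    (hα' : OrdW (O (j + 1)) (v (j + 1)) (T (j + 1)) (Q (j + 1)) Γ D α') {w₀ : Cm 4} {r' : ℝ}
    {γ : Cm 4 → (X j).pt} {i : ∀ e, (L j e).ι}
    {n : ∀ e, (((Bd.can 4 Y).pow (m e)).mul (M e)).ι} {x : Fin (k + s) → ℚ}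
    (hn : NiceW (O j) (v j) (T j) Γ D w₀ r' γ i n x) (hA : f j (γ w₀) ∉ Amin (f j)) :
    α' = α := by
  obtain ⟨p, q, u, a, hf, d, b, -, -, -, hb, hOj, hvj, hPj, hQj, hTj⟩ := h.step j
  obtain ⟨r₂, γ₁, j', hn'⟩ := nice_persist (h.tw1 j) hf hb hn hA
  rw [hOj, hvj, hTj, hQj] at hα'
  funext e
  have h1 := hα'.ord _ _ _ _ _ _ hn' e
  have h2 := hα.ord _ _ _ _ _ _ hn e
  have h3 : ((Q j e : ℕ) : ℚ) ≠ 0 := by
    have := ((h.tw1 j).tw e).hQ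
    exact_mod_cast (Nat.one_le_iff_ne_zero.1 this)
  have h4 : ((p e : ℕ) : ℚ) ≠ 0 := by
    have := hf.hp e
    exact_mod_cast (Nat.one_le_iff_ne_zero.1 this)
  rw [h2] at h1
  push_cast at h1
  have h5 : (Q j e : ℚ) * p e ≠ 0 := mul_ne_zero h3 h4
  refine mul_right_cancel₀ h5 ?_
  rw [← h1]
  ring

/-- The order vectors along the wedge `Ψ ∘ bet h` are constant, after `B μ` is disjoint from the
exceptional sets. -/
theorem TwSeqN.persist (h : TwSeqN ρ sg v₀ p₀ G f f' L c σ t N Bad O v P Q T) {μ : Fin s}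
    {H : Type} [TopologicalSpace H] [ChartedSpace (Cm 3) H] {ι : H → Y}
    (hE : IsLB 4 (M (Fin.natAdd k μ))) (hbd : T3.IsBd ι (M (Fin.natAdd k μ)) (sg μ))
    (hσ : ∀ j, IsSecx (X j) univ (L j (Fin.natAdd k μ)) (σ j μ)) {Ψ : Cm 4 → Y} {z : Cm 4}
    {r' : ℝ} (hpar : IsPar (range ι) Ψ z r') (hz : z 1 = 0) {g : ℕ} (hg : 1 ≤ g)
    {α : ℕ → Fin (k + s) → ℚ} (hα : ∀ j, OrdW (O j) (v j) (T j) (Q j) (fun w => Ψ (T3.bet g w))
      {w | T3.bet g w ∈ ball z r'} (α j)) {J : ℕ}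
    (hJ : ∀ j ≥ J, zer (L j (Fin.natAdd k μ)) (σ j μ) ∩ f j ⁻¹' Amin (f j) = ∅)
    (hne : α J (Fin.natAdd k μ) ≠ g) : ∀ j ≥ J, α j = α J := by
  have hW := stWgAd Y (range ι) Ψ z r' hpar hz g hg
  intro j hj
  induction j, hj using Nat.le_induction with
  | base => rfl
  | succ j hj ih =>
    rw [← ih]
    obtain ⟨w, hw, hw0⟩ := hW.ne
    obtain ⟨w₁, -, k2, k3, x, r₁, γ, i, n, hn⟩ :=
      H884.W.OrdW.exists_nice hW.isOpen (hα j) hw hw0 univ_mem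
    refine h.persist_step (hα j) (hα (j + 1)) hn fun hA => ?_
    have h1 : γ w₁ ∈ zer (L j (Fin.natAdd k μ)) (σ j μ) := by
      refine sigma_zero (h.tw1 j) (h.sec j) hE hbd (hσ j) hpar hg ((h.tw1 j).tw
        (Fin.natAdd k μ)).emb.isOpen (h.dense j) hW hn ?_
      rw [(hα j).ord _ _ _ _ _ _ hn (Fin.natAdd k μ)]
      intro hcon
      have h3 : ((Q j (Fin.natAdd k μ) : ℕ) : ℚ) ≠ 0 := by
        have := ((h.tw1 j).tw (Fin.natAdd k μ)).hQ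
        exact_mod_cast (Nat.one_le_iff_ne_zero.1 this)
      have h4 := mul_right_cancel₀ h3 hcon
      rw [ih] at h4
      exact hne h4
    have h2 : γ w₁ ∈ zer (L j (Fin.natAdd k μ)) (σ j μ) ∩ f j ⁻¹' Amin (f j) := ⟨h1, hA⟩
    rw [hJ j hj] at h2
    exact h2

end tower

section count

variable {Y : Type} [TopologicalSpace Y] [T2Space Y] [ChartedSpace (Cm 4) Y]
  [IsManifold 𝓘(ℂ, Cm 4) ω Y]

/-- the counting argument; for `b ∈ S` the multiplicity `g` is not bounded a priori -/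
theorem count_core5 {r s : ℕ} {G : Fin r → Set Y} (hG : ∀ l, IsHyp (G l))
    (hGc : ∀ l, IsPreconnected (G l)) {E : Fin s → Set Y} {q : Fin s → ℕ}
    {V : ∀ b, Fin (q b) → Set Y} (hV : ∀ b l, IsSf (E b) (V b l))
    (hVc : ∀ b l, IsPreconnected (V b l)) (val : (Cm 4 → Y) → Set (Cm 4) → ℕ → ℝ)
    (hmono : ∀ Γ D, IsWg Γ D → ∀ j, val Γ D j ≤ val Γ D (j + 1))
    (hrel : ∀ γ γ' D D' w w', IsWg γ D → IsWg γ' D' → w ∈ D → w 0 = 0 → w' ∈ D' → w' 0 = 0 →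
      WgRel γ γ' w w' → val γ D = val γ' D') (gm : ℕ) {F : Set ℝ} (hF : F.Finite) (B : Set ℕ)
    (S : Set (Fin s)) (hS : ∀ b ∈ S, ∀ l Ψ c r, IsAd (E b) (V b l) Ψ c r → ∃ g₀, ∀ g ≥ g₀,
      1 ≤ g → ∀ j ∈ B, val (fun w => Ψ (T3.bet g w)) {w | T3.bet g w ∈ ball c r} (j + 1) ≤
        val (fun w => Ψ (T3.bet g w)) {w | T3.bet g w ∈ ball c r} j)
    (hB : ∀ j ∈ B, ∃ Γ D, IsWg Γ D ∧ val Γ D j < val Γ D (j + 1) ∧ val Γ D (j + 1) ∈ F ∧
      ((∃ l w₁ r₁, IsPar (G l) Γ w₁ r₁ ∧ w₁ ∈ D) ∨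
        ∃ (b : Fin s) (g : ℕ), 1 ≤ g ∧ (g ≤ gm ∨ b ∈ S) ∧ ∃ w₁ ∈ D, w₁ 0 = 0 ∧ ∃ Ψ c r w',
          IsPar (E b) Ψ c r ∧ c 1 = 0 ∧ T3.bet g w' = c ∧ w' 0 = 0 ∧
          WgRel Γ (fun w => Ψ (T3.bet g w)) w₁ w' ∧
          ∃ l, ∃ z ∈ ball c r, ∃ r', ball z r' ⊆ ball c r ∧ IsAd (E b) (V b l) Ψ z r')) :
    B.Finite := by
  classical
  obtain ⟨hc1, hc2⟩ := stConst' Y (ℕ → ℝ) val hrel
  -- the bounds
  have hbd : ∀ (b : Fin s) (l : Fin (q b)), ∃ g₀ : ℕ, b ∈ S → ∀ Ψ c r,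
      IsAd (E b) (V b l) Ψ c r → ∀ g ≥ g₀, 1 ≤ g → ∀ j ∈ B,
        val (fun w => Ψ (T3.bet g w)) {w | T3.bet g w ∈ ball c r} (j + 1) ≤
          val (fun w => Ψ (T3.bet g w)) {w | T3.bet g w ∈ ball c r} j := by
    intro b l
    by_cases h : b ∈ S ∧ ∃ a : (Cm 4 → Y) × Cm 4 × ℝ, IsAd (E b) (V b l) a.1 a.2.1 a.2.2
    · obtain ⟨hb, ⟨Ψ₀, c₀, r₀⟩, had₀⟩ := h
      obtain ⟨g₀, hg₀⟩ := hS b hb l Ψ₀ c₀ r₀ had₀
      refine ⟨g₀, fun _ Ψ c r had g hg hg1 j hj => ?_⟩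
      have h1 := hc1 (E b) (V b l) (hV b l) (hVc b l) g hg1 Ψ Ψ₀ c c₀ r r₀ had had₀
      rw [h1]
      exact hg₀ g hg hg1 j hj
    · exact ⟨0, fun hb Ψ c r had => (h ⟨hb, (Ψ, c, r), had⟩).elim⟩
  choose g₀ hg₀ using hbd
  refine count_core hG hGc hV hVc val hmono hrel (gm + ∑ b, ∑ l, g₀ b l) hF B ?_
  intro j hj
  obtain ⟨Γ, D, hw, h1, h2, hcase⟩ := hB j hj
  refine ⟨Γ, D, hw, h1, h2, ?_⟩
  rcases hcase with h3 | ⟨b, g, hg1, hgm, w₁, hw₁D, hw₁0, Ψ, c, r', w', hpar,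
      hc0, hbw, hw'0, hWR, l, z, hz, r'', hsub, had⟩
  · exact Or.inl h3
  · right
    refine ⟨b, g, hg1, ?_, w₁, hw₁D, hw₁0, Ψ, c, r', w', hpar, hc0, hbw, hw'0, hWR, l, z, hz, r'',
      hsub, had⟩
    rcases hgm with hgm | hbS
    · omega
    · have h4 : g < g₀ b l := by
        by_contra hcon
        push Not at hcon
        have h5 := hg₀ b l hbS Ψ z r'' had g hcon hg1 j hj
        have hW1 := stWgAd Y (E b) Ψ c r' hpar hc0 g hg1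
        have hW2 := stWgAd Y (E b) Ψ z r'' had.par had.one g hg1
        have hz2 : T3.bet g ![0, 0, z 2, z 3] = z := bet_point hg1 had.par.zero had.one
        have e2 : val (fun w => Ψ (T3.bet g w)) {w | T3.bet g w ∈ ball z r''} =
            val (fun w => Ψ (T3.bet g w)) {w | T3.bet g w ∈ ball c r'} := by
          refine hrel _ _ _ _ ![0, 0, z 2, z 3] ![0, 0, z 2, z 3] hW2 hW1 ?_ rfl ?_ rfl
            (wgRel_id _)
          · show T3.bet g ![0, 0, z 2, z 3] ∈ ball z r''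
            rw [hz2]; exact mem_ball_self had.par.pos
          · show T3.bet g ![0, 0, z 2, z 3] ∈ ball c r'
            rw [hz2]; exact hz
        have e3 : val Γ D = val (fun w => Ψ (T3.bet g w)) {w | T3.bet g w ∈ ball c r'} := by
          refine hrel _ _ _ _ w₁ w' hw hW1 hw₁D hw₁0 ?_ hw'0 hWR
          show T3.bet g w' ∈ ball c r'
          rw [hbw]; exact mem_ball_self hpar.pos
        rw [e2, ← e3] at h5
        exact absurd h1 (not_lt.2 h5)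
      have h5 : g₀ b l ≤ ∑ b, ∑ l, g₀ b l :=
        (Finset.single_le_sum (f := fun l => g₀ b l) (fun _ _ => Nat.zero_le _)
          (Finset.mem_univ l)).trans (Finset.single_le_sum (f := fun b => ∑ l, g₀ b l)
            (fun _ _ => Nat.zero_le _) (Finset.mem_univ b))
      omega

end count

end Vale.Agent.P277.H762
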